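import Vale.Agent.Lib.P074.Third.Defs

/-!
# P074: the weights of a power diagram are Lipschitz in the sites (core argument)

Mixed second difference of the semi-discrete transport value `M(m, y)` (concave in the masses,
convex in the sites), a subdivision of the segment of sites, and a Minty-type limit.
-/

namespace Vale.Agent.Lib.P074.Lip

open MeasureTheory

variable {d : ℕ}

/-- The three facts about power diagrams used by the core argument. -/
structure Facts (K : Set (E d)) : Prop where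
  sum_mass : ∀ (n : ℕ) (y : Fin (n + 1) → E d) (ψ : Fin (n + 1) → ℝ), Function.Injective y →
    ∑ k, cmass K y ψ k = 1
  F1 : ∀ (n : ℕ) (y : Fin (n + 1) → E d) (ψ : Fin (n + 1) → ℝ), Function.Injective y →
    ∑ k, inner ℝ (cmom K y ψ k) (y k)
      = ∫ x, ppot y ψ x ∂(unif K) + ∑ k, cmass K y ψ k * ψ k
  F2 : ∀ (n : ℕ) (y y' : Fin (n + 1) → E d) (ψ ψ' : Fin (n + 1) → ℝ), Function.Injective y' →
    ∑ k, inner ℝ (cmom K y' ψ' k) (y k)
      ≤ ∫ x, ppot y ψ x ∂(unif K) + ∑ k, cmass K y' ψ' k * ψ k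

lemma exists_good_between {B : Set ℝ} (hB : B.Finite) {a b : ℝ} (hab : a < b) :
    ∃ x ∈ Set.Icc a b, x ∉ B := by
  have hinf : (Set.Icc a b).Infinite := Set.Icc_infinite hab
  obtain ⟨x, hx, hxB⟩ := hinf.exists_notMem_finite hB
  exact ⟨x, hx, hxB⟩

lemma subdiv_bound (A P : ℝ → ℝ) (B : Set ℝ) (hB : B.Finite) (h0 : (0 : ℝ) ∉ B)
    (h1 : (1 : ℝ) ∉ B) (L : ℝ)
    (hstep : ∀ s s', s ∉ B → s' ∉ B → s < s' →
      A s' - A s ≤ (s' - s) * L + (s' - s) * (P s' - P s))
    (hmono : ∀ s s', s ∉ B → s' ∉ B → s < s' → P s ≤ P s') :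
    A 1 - A 0 ≤ L := by
  have key : ∀ N : ℕ, 0 < N → A 1 - A 0 ≤ L + 3 / (2 * N) * (P 1 - P 0) := by
    intro N hN
    have hNpos : (0 : ℝ) < N := by exact_mod_cast hN
    have hhalf : (0 : ℝ) < 1 / (2 * N) := by positivity
    have hex : ∀ j : ℕ, ∃ x : ℝ, x ∉ B ∧ (j : ℝ) / N ≤ x ∧ x ≤ (j : ℝ) / N + 1 / (2 * N) ∧
        (j = 0 → x = 0) ∧ (j = N → x = 1) := by
      intro j
      by_cases hj0 : j = 0
      · refine ⟨0, h0, ?_, ?_, fun _ => rfl, fun h => ?_⟩
        · simp [hj0]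
        · simp only [hj0, Nat.cast_zero, zero_div, zero_add]; exact hhalf.le
        · omega
      by_cases hjN : j = N
      · refine ⟨1, h1, ?_, ?_, fun h => absurd h hj0, fun _ => rfl⟩
        · rw [hjN, div_self hNpos.ne']
        · rw [hjN, div_self hNpos.ne']; linarith
      · obtain ⟨x, hx, hxB⟩ := exists_good_between hB (a := (j : ℝ) / N)
          (b := (j : ℝ) / N + 1 / (2 * N)) (by linarith)
        exact ⟨x, hxB, hx.1, hx.2, fun h => absurd h hj0, fun h => absurd h hjN⟩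
    choose s hsB hslo hshi hs0 hsN using hex
    have hs0' : s 0 = 0 := hs0 0 rfl
    have hsN' : s N = 1 := hsN N rfl
    have hsucc : ∀ j : ℕ, ((j + 1 : ℕ) : ℝ) / N = (j : ℝ) / N + 1 / N := by
      intro j; push_cast; ring
    have h2N : (1 : ℝ) / (2 * N) + 1 / (2 * N) = 1 / N := by field_simp; ring
    have hlt : ∀ j, s j < s (j + 1) := by
      intro j
      have h1 := hshi j
      have h2 := hslo (j + 1)
      rw [hsucc] at h2
      linarith
    have hgap : ∀ j, s (j + 1) - s j ≤ 3 / (2 * N) := by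
      intro j
      have h1 := hslo j
      have h2 := hshi (j + 1)
      rw [hsucc] at h2
      have : (3 : ℝ) / (2 * N) = 1 / N + 1 / (2 * N) := by field_simp; ring
      linarith
    have hsum : A 1 - A 0 = ∑ j ∈ Finset.range N, (A (s (j + 1)) - A (s j)) := by
      rw [Finset.sum_range_sub (fun j => A (s j)) N, hs0', hsN']
    have hsumP : P 1 - P 0 = ∑ j ∈ Finset.range N, (P (s (j + 1)) - P (s j)) := by
      rw [Finset.sum_range_sub (fun j => P (s j)) N, hs0', hsN']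
    have hsums : (1 : ℝ) = ∑ j ∈ Finset.range N, (s (j + 1) - s j) := by
      rw [Finset.sum_range_sub (fun j => s j) N, hs0', hsN']; ring
    rw [hsum]
    calc ∑ j ∈ Finset.range N, (A (s (j + 1)) - A (s j))
        ≤ ∑ j ∈ Finset.range N,
            ((s (j + 1) - s j) * L + 3 / (2 * N) * (P (s (j + 1)) - P (s j))) := by
          apply Finset.sum_le_sum
          intro j _
          have h1 := hstep (s j) (s (j + 1)) (hsB j) (hsB (j + 1)) (hlt j)
          have h2 := hmono (s j) (s (j + 1)) (hsB j) (hsB (j + 1)) (hlt j)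
          have h3 := hgap j
          have h4 : (s (j + 1) - s j) * (P (s (j + 1)) - P (s j))
              ≤ 3 / (2 * N) * (P (s (j + 1)) - P (s j)) :=
            mul_le_mul_of_nonneg_right h3 (by linarith)
          linarith
      _ = L + 3 / (2 * N) * (P 1 - P 0) := by
          rw [Finset.sum_add_distrib, ← Finset.sum_mul, ← Finset.mul_sum, ← hsums, ← hsumP]
          ring
  by_contra hcon
  push Not at hcon
  have hP : 0 ≤ P 1 - P 0 := by
    have := hmono 0 1 h0 h1 one_pos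
    linarith
  have hgapp : 0 < A 1 - A 0 - L := by linarith
  obtain ⟨N, hN⟩ := exists_nat_gt (3 * (P 1 - P 0) / (2 * (A 1 - A 0 - L)))
  have hq : 0 ≤ 3 * (P 1 - P 0) / (2 * (A 1 - A 0 - L)) := by positivity
  have hNr : (0 : ℝ) < N := lt_of_le_of_lt hq hN
  have hNpos : 0 < N := by exact_mod_cast hNr
  have hk := key N hNpos
  rw [div_lt_iff₀ (by positivity)] at hN
  have : 3 / (2 * (N : ℝ)) * (P 1 - P 0) < A 1 - A 0 - L := by
    rw [div_mul_eq_mul_div, div_lt_iff₀ (by positivity)]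
    nlinarith
  linarith


/-- The segment of site families from `y` to `y'`. -/
def seg {n : ℕ} (y y' : Fin (n + 1) → E d) (s : ℝ) : Fin (n + 1) → E d :=
  fun k => y k + s • (y' k - y k)

lemma bad_finite {n : ℕ} (y y' : Fin (n + 1) → E d) (hy : Function.Injective y) :
    {s : ℝ | ¬ Function.Injective (seg y y' s)}.Finite := by
  have hsub : {s : ℝ | ¬ Function.Injective (seg y y' s)} ⊆
      ⋃ p : {p : Fin (n + 1) × Fin (n + 1) // p.1 ≠ p.2},
        {s : ℝ | y p.1.1 + s • (y' p.1.1 - y p.1.1) = y p.1.2 + s • (y' p.1.2 - y p.1.2)} := by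
    intro s hs
    simp only [Set.mem_ofPred_eq, Function.Injective, seg] at hs
    push Not at hs
    obtain ⟨k, l, hkl, hne⟩ := hs
    exact Set.mem_iUnion.2 ⟨⟨(k, l), hne⟩, hkl⟩
  refine Set.Finite.subset (Set.finite_iUnion fun p => ?_) hsub
  apply Set.Subsingleton.finite
  intro s hs s' hs'
  simp only [Set.mem_ofPred_eq] at hs hs'
  by_contra hne
  have h1 : (s - s') • ((y' p.1.1 - y p.1.1) - (y' p.1.2 - y p.1.2)) = 0 := by
    linear_combination (norm := module) hs - hs'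
  rcases smul_eq_zero.1 h1 with h | h
  · exact hne (sub_eq_zero.1 h)
  · have h2 : y p.1.1 = y p.1.2 := by
      linear_combination (norm := module) hs - s • h
    exact p.2 (hy h2)


/-- The pairing of the cell moments of the diagram with sites `y` and weights `w` with a family of vectors `v`. -/
noncomputable def pair (K : Set (E d)) {n : ℕ} (y : Fin (n + 1) → E d) (w : Fin (n + 1) → ℝ)
    (v : Fin (n + 1) → E d) : ℝ :=
  ∑ k, inner ℝ (cmom K y w k) (v k)

lemma seg_zero {n : ℕ} (y y' : Fin (n + 1) → E d) : seg y y' 0 = y := by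
  funext k; simp [seg]

lemma seg_one {n : ℕ} (y y' : Fin (n + 1) → E d) : seg y y' 1 = y' := by
  funext k; simp [seg]

lemma pair_seg (K : Set (E d)) {n : ℕ} (y y' : Fin (n + 1) → E d) (z : Fin (n + 1) → E d)
    (w : Fin (n + 1) → ℝ) (s s' : ℝ) :
    pair K z w (seg y y' s') = pair K z w (seg y y' s) + (s' - s) * pair K z w (fun k => y' k - y k) := by
  simp only [pair, Finset.mul_sum, ← Finset.sum_add_distrib]
  apply Finset.sum_congr rfl; intro k _
  have : seg y y' s' k = seg y y' s k + (s' - s) • (y' k - y k) := by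
    simp only [seg]; module
  rw [this, inner_add_right, inner_smul_right]

/-- Convexity in the sites: the partition of one diagram is a competitor for another diagram
with the same masses. -/
lemma conv_ineq {K : Set (E d)} (hF : Facts K) {n : ℕ} (y₁ y₂ : Fin (n + 1) → E d)
    (w₁ w₂ : Fin (n + 1) → ℝ) (h₁ : Function.Injective y₁) (h₂ : Function.Injective y₂)
    (hmass : ∀ k, cmass K y₁ w₁ k = cmass K y₂ w₂ k) :
    pair K y₁ w₁ y₂ ≤ pair K y₂ w₂ y₂ := by
  have h := hF.F2 n y₂ y₁ w₂ w₁ h₁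
  have h1 := hF.F1 n y₂ w₂ h₂
  have e2 : ∑ k, cmass K y₁ w₁ k * w₂ k = ∑ k, cmass K y₂ w₂ k * w₂ k := by
    apply Finset.sum_congr rfl; intro k _; rw [hmass k]
  simp only [pair]
  linarith

/-- Concavity in the masses. -/
lemma conc_ineq {K : Set (E d)} (hF : Facts K) {n : ℕ} (y : Fin (n + 1) → E d)
    (w₁ w₂ : Fin (n + 1) → ℝ) (hy : Function.Injective y) :
    pair K y w₂ y ≤ pair K y w₁ y + ∑ k, (cmass K y w₂ k - cmass K y w₁ k) * w₁ k := by
  have h := hF.F2 n y y w₁ w₂ hy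
  have h1 := hF.F1 n y w₁ hy
  have e : ∑ k, (cmass K y w₂ k - cmass K y w₁ k) * w₁ k
      = ∑ k, cmass K y w₂ k * w₁ k - ∑ k, cmass K y w₁ k * w₁ k := by
    rw [← Finset.sum_sub_distrib]; apply Finset.sum_congr rfl; intro k _; ring
  simp only [pair]
  linarith

/-- Weighted Cauchy–Schwarz. -/
lemma cs_bound {n : ℕ} (m : Fin (n + 1) → ℝ) (hm : ∀ k, 0 < m k) (u v : Fin (n + 1) → E d) :
    ∑ k, inner ℝ (u k) (v k)
      ≤ Real.sqrt (∑ k, ‖u k‖ ^ 2 / m k) * Real.sqrt (∑ k, m k * ‖v k‖ ^ 2) := by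
  calc ∑ k, inner ℝ (u k) (v k)
      ≤ ∑ k, (‖u k‖ / Real.sqrt (m k)) * (Real.sqrt (m k) * ‖v k‖) := by
        apply Finset.sum_le_sum; intro k _
        have hsq : 0 < Real.sqrt (m k) := Real.sqrt_pos.2 (hm k)
        have e' : (‖u k‖ / Real.sqrt (m k)) * (Real.sqrt (m k) * ‖v k‖) = ‖u k‖ * ‖v k‖ := by
          field_simp
        rw [e']; exact real_inner_le_norm _ _
    _ ≤ Real.sqrt (∑ k, (‖u k‖ / Real.sqrt (m k)) ^ 2)
          * Real.sqrt (∑ k, (Real.sqrt (m k) * ‖v k‖) ^ 2) :=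
        Real.sum_mul_le_sqrt_mul_sqrt _ _ _
    _ = _ := by
        have e1 : ∑ k, (‖u k‖ / Real.sqrt (m k)) ^ 2 = ∑ k, ‖u k‖ ^ 2 / m k := by
          apply Finset.sum_congr rfl; intro k _; rw [div_pow, Real.sq_sqrt (hm k).le]
        have e2 : ∑ k, (Real.sqrt (m k) * ‖v k‖) ^ 2 = ∑ k, m k * ‖v k‖ ^ 2 := by
          apply Finset.sum_congr rfl; intro k _
          rw [mul_pow, Real.sq_sqrt (hm k).le]
        rw [e1, e2]


/-- Upper bound for the mixed second difference along the segment of sites. -/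
lemma path_bound {K : Set (E d)} (hF : Facts K) (C₀ : ℝ)
    (hcen : ∀ (n : ℕ) (y : Fin (n + 1) → E d) (ψ ψ' : Fin (n + 1) → ℝ),
      Function.Injective y → (∀ k, 0 < cmass K y ψ k) →
      (∀ k, |cmass K y ψ' k - cmass K y ψ k| ≤ cmass K y ψ k / 2) →
      ∑ k, ‖cmom K y ψ' k - cmom K y ψ k‖ ^ 2 / cmass K y ψ k
        ≤ C₀ * ∑ k, (cmass K y ψ' k - cmass K y ψ k) ^ 2 / cmass K y ψ k)
    {n : ℕ} (y y' : Fin (n + 1) → E d) (hy : Function.Injective y) (hy' : Function.Injective y')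
    (m m' : Fin (n + 1) → ℝ) (hm : ∀ k, 0 < m k) (hclose : ∀ k, |m' k - m k| ≤ m k / 2)
    (wm wt : ℝ → Fin (n + 1) → ℝ)
    (hwm : ∀ s, Function.Injective (seg y y' s) → ∀ k, cmass K (seg y y' s) (wm s) k = m k)
    (hwt : ∀ s, Function.Injective (seg y y' s) → ∀ k, cmass K (seg y y' s) (wt s) k = m' k) :
    (pair K (seg y y' 1) (wt 1) (seg y y' 1) - pair K (seg y y' 1) (wm 1) (seg y y' 1))
      - (pair K (seg y y' 0) (wt 0) (seg y y' 0) - pair K (seg y y' 0) (wm 0) (seg y y' 0))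
      ≤ Real.sqrt (C₀ * ∑ k, (m' k - m k) ^ 2 / m k)
        * Real.sqrt (∑ k, m k * ‖y' k - y k‖ ^ 2) := by
  have hBfin := bad_finite y y' hy
  have h0B : (0 : ℝ) ∉ {s : ℝ | ¬ Function.Injective (seg y y' s)} :=
    fun h => h (by rw [seg_zero]; exact hy)
  have h1B : (1 : ℝ) ∉ {s : ℝ | ¬ Function.Injective (seg y y' s)} :=
    fun h => h (by rw [seg_one]; exact hy')
  have hgood : ∀ s, s ∉ {s : ℝ | ¬ Function.Injective (seg y y' s)} →
      Function.Injective (seg y y' s) := fun s hs => by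
    by_contra h; exact hs h
  have conv_m : ∀ s s', Function.Injective (seg y y' s) → Function.Injective (seg y y' s') →
      pair K (seg y y' s) (wm s) (seg y y' s)
        + (s' - s) * pair K (seg y y' s) (wm s) (fun k => y' k - y k)
        ≤ pair K (seg y y' s') (wm s') (seg y y' s') := by
    intro s s' hs hs'
    have h := conv_ineq hF (seg y y' s) (seg y y' s') (wm s) (wm s') hs hs'
      (fun k => by rw [hwm s hs k, hwm s' hs' k])
    rw [pair_seg K y y' (seg y y' s) (wm s) s s'] at h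
    exact h
  have conv_t : ∀ s s', Function.Injective (seg y y' s) → Function.Injective (seg y y' s') →
      pair K (seg y y' s) (wt s) (seg y y' s)
        + (s' - s) * pair K (seg y y' s) (wt s) (fun k => y' k - y k)
        ≤ pair K (seg y y' s') (wt s') (seg y y' s') := by
    intro s s' hs hs'
    have h := conv_ineq hF (seg y y' s) (seg y y' s') (wt s) (wt s') hs hs'
      (fun k => by rw [hwt s hs k, hwt s' hs' k])
    rw [pair_seg K y y' (seg y y' s) (wt s) s s'] at h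
    exact h
  have cen : ∀ s, Function.Injective (seg y y' s) →
      pair K (seg y y' s) (wt s) (fun k => y' k - y k)
        - pair K (seg y y' s) (wm s) (fun k => y' k - y k)
        ≤ Real.sqrt (C₀ * ∑ k, (m' k - m k) ^ 2 / m k)
          * Real.sqrt (∑ k, m k * ‖y' k - y k‖ ^ 2) := by
    intro s hs
    have h := hcen n (seg y y' s) (wm s) (wt s) hs (fun k => by rw [hwm s hs k]; exact hm k)
      (fun k => by rw [hwm s hs k, hwt s hs k]; exact hclose k)
    have e1 : ∑ k, ‖cmom K (seg y y' s) (wt s) k - cmom K (seg y y' s) (wm s) k‖ ^ 2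
          / cmass K (seg y y' s) (wm s) k
        = ∑ k, ‖cmom K (seg y y' s) (wt s) k - cmom K (seg y y' s) (wm s) k‖ ^ 2 / m k := by
      apply Finset.sum_congr rfl; intro k _; rw [hwm s hs k]
    have e2 : ∑ k, (cmass K (seg y y' s) (wt s) k - cmass K (seg y y' s) (wm s) k) ^ 2
          / cmass K (seg y y' s) (wm s) k = ∑ k, (m' k - m k) ^ 2 / m k := by
      apply Finset.sum_congr rfl; intro k _; rw [hwm s hs k, hwt s hs k]
    rw [e1, e2] at h
    have e : pair K (seg y y' s) (wt s) (fun k => y' k - y k)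
        - pair K (seg y y' s) (wm s) (fun k => y' k - y k)
        = ∑ k, inner ℝ (cmom K (seg y y' s) (wt s) k - cmom K (seg y y' s) (wm s) k)
            (y' k - y k) := by
      simp only [pair, ← Finset.sum_sub_distrib, inner_sub_left]
    rw [e]
    refine (cs_bound m hm _ _).trans ?_
    exact mul_le_mul_of_nonneg_right (Real.sqrt_le_sqrt h) (Real.sqrt_nonneg _)
  refine subdiv_bound
    (fun s => pair K (seg y y' s) (wt s) (seg y y' s) - pair K (seg y y' s) (wm s) (seg y y' s))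
    (fun s => pair K (seg y y' s) (wm s) (fun k => y' k - y k))
    {s : ℝ | ¬ Function.Injective (seg y y' s)} hBfin h0B h1B _ ?_ ?_
  · intro s s' hs hs' hlt
    have h1 := conv_t s' s (hgood s' hs') (hgood s hs)
    have h2 := conv_m s s' (hgood s hs) (hgood s' hs')
    have h3 := cen s' (hgood s' hs')
    have h4 := mul_le_mul_of_nonneg_left h3 (by linarith : (0 : ℝ) ≤ s' - s)
    nlinarith
  · intro s s' hs hs' hlt
    have h1 := conv_m s s' (hgood s hs) (hgood s' hs')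
    have h2 := conv_m s' s (hgood s' hs') (hgood s hs)
    by_contra hcon
    push Not at hcon
    have : 0 < (s' - s) * (pair K (seg y y' s) (wm s) (fun k => y' k - y k)
        - pair K (seg y y' s') (wm s') (fun k => y' k - y k)) :=
      mul_pos (by linarith) (by linarith)
    nlinarith


/-- Lower bound for the mixed second difference (concavity in the masses). -/
lemma second_diff_lower {K : Set (E d)} (hF : Facts K) {n : ℕ} (y y' : Fin (n + 1) → E d)
    (hy : Function.Injective y) (hy' : Function.Injective y') (ψ : Fin (n + 1) → ℝ)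
    (m m' : Fin (n + 1) → ℝ) (hmeq : ∀ k, cmass K y ψ k = m k) (wm wt : ℝ → Fin (n + 1) → ℝ)
    (hwm : ∀ s, Function.Injective (seg y y' s) → ∀ k, cmass K (seg y y' s) (wm s) k = m k)
    (hwt : ∀ s, Function.Injective (seg y y' s) → ∀ k, cmass K (seg y y' s) (wt s) k = m' k) :
    ∑ k, (m' k - m k) * (wt 1 k - ψ k) ≤
    (pair K (seg y y' 1) (wt 1) (seg y y' 1) - pair K (seg y y' 1) (wm 1) (seg y y' 1))
      - (pair K (seg y y' 0) (wt 0) (seg y y' 0) - pair K (seg y y' 0) (wm 0) (seg y y' 0)) := by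
  have hi0 : Function.Injective (seg y y' 0) := by rw [seg_zero]; exact hy
  have hi1 : Function.Injective (seg y y' 1) := by rw [seg_one]; exact hy'
  have hwm0 := hwm 0 hi0
  have hwt0 := hwt 0 hi0
  have h1 := conc_ineq hF (seg y y' 1) (wt 1) (wm 1) hi1
  have e1 : ∑ k, (cmass K (seg y y' 1) (wm 1) k - cmass K (seg y y' 1) (wt 1) k) * wt 1 k
      = - ∑ k, (m' k - m k) * wt 1 k := by
    rw [← Finset.sum_neg_distrib]; apply Finset.sum_congr rfl; intro k _
    rw [hwm 1 hi1 k, hwt 1 hi1 k]; ring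
  rw [e1] at h1
  rw [seg_zero] at hwm0 hwt0 ⊢
  have h2 := conc_ineq hF y ψ (wt 0) hy
  have e2 : ∑ k, (cmass K y (wt 0) k - cmass K y ψ k) * ψ k = ∑ k, (m' k - m k) * ψ k := by
    apply Finset.sum_congr rfl; intro k _; rw [hwt0 k, hmeq k]
  rw [e2] at h2
  have h3 := conv_ineq hF y y ψ (wm 0) hy hy (fun k => by rw [hwm0 k, hmeq k])
  have e3 : ∑ k, (m' k - m k) * (wt 1 k - ψ k)
      = ∑ k, (m' k - m k) * wt 1 k - ∑ k, (m' k - m k) * ψ k := by
    rw [← Finset.sum_sub_distrib]; apply Finset.sum_congr rfl; intro k _; ring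
  rw [e3]
  linarith


/-- The Minty-type limit: for every `δ > 0` the weighted variance `V` of the weight increments
is at most `√(C₀ V) √W + δ S`. -/
lemma key_ineq {K : Set (E d)} (hF : Facts K) (C₀ : ℝ)
    (hcen : ∀ (n : ℕ) (y : Fin (n + 1) → E d) (ψ ψ' : Fin (n + 1) → ℝ),
      Function.Injective y → (∀ k, 0 < cmass K y ψ k) →
      (∀ k, |cmass K y ψ' k - cmass K y ψ k| ≤ cmass K y ψ k / 2) →
      ∑ k, ‖cmom K y ψ' k - cmom K y ψ k‖ ^ 2 / cmass K y ψ k
        ≤ C₀ * ∑ k, (cmass K y ψ' k - cmass K y ψ k) ^ 2 / cmass K y ψ k)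
    (hex : ∀ (n : ℕ) (y : Fin (n + 1) → E d), Function.Injective y →
      ∀ m : Fin (n + 1) → ℝ, (∀ k, 0 < m k) → ∑ k, m k = 1 →
        ∃ ψ : Fin (n + 1) → ℝ, ∀ k, cmass K y ψ k = m k)
    (hcont : ∀ (n : ℕ) (y : Fin (n + 1) → E d), Function.Injective y →
      ∀ ψ : Fin (n + 1) → ℝ, (∀ k, 0 < cmass K y ψ k) → ∀ δ : ℝ, 0 < δ →
        ∃ θ : ℝ, 0 < θ ∧ ∀ ψ' : Fin (n + 1) → ℝ,
          ∑ k, |cmass K y ψ' k - cmass K y ψ k| < θ → ∃ c : ℝ, ∀ k, |ψ' k - ψ k - c| < δ)
    {n : ℕ} (y y' : Fin (n + 1) → E d) (ψ ψ' : Fin (n + 1) → ℝ)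
    (hy : Function.Injective y) (hy' : Function.Injective y')
    (m : Fin (n + 1) → ℝ) (hmeq : ∀ k, cmass K y ψ k = m k) (hm : ∀ k, 0 < m k)
    (hmm : ∀ k, cmass K y' ψ' k = m k)
    (η : Fin (n + 1) → ℝ) (hηsum : ∑ k, η k = 0) (c V : ℝ)
    (hηV : ∑ k, η k * (ψ' k - ψ k - c) = V) (hηm : ∑ k, η k ^ 2 / m k = V)
    (δ : ℝ) (hδ : 0 < δ) :
    V ≤ Real.sqrt (C₀ * V) * Real.sqrt (∑ k, m k * ‖y' k - y k‖ ^ 2) + δ * ∑ k, |η k| := by
  classical
  have hmsum : ∑ k, m k = 1 := by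
    have := hF.sum_mass n y ψ hy
    rw [← this]; apply Finset.sum_congr rfl; intro k _; rw [hmeq k]
  have hS0 : 0 ≤ ∑ k, |η k| := Finset.sum_nonneg fun k _ => abs_nonneg _
  obtain ⟨θ, hθ, hθc⟩ := hcont n y' hy' ψ' (fun k => by rw [hmm k]; exact hm k) δ hδ
  obtain ⟨k₀, -, hk₀⟩ := Finset.exists_min_image Finset.univ m Finset.univ_nonempty
  have hμ₀ : 0 < m k₀ := hm k₀
  have hminpos : 0 < min (m k₀ / 2) (θ / 2) := lt_min (by linarith) (by linarith)
  obtain ⟨t, ht, htS⟩ : ∃ t : ℝ, 0 < t ∧ t * ∑ k, |η k| ≤ min (m k₀ / 2) (θ / 2) := by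
    refine ⟨min (m k₀ / 2) (θ / 2) / (∑ k, |η k| + 1), by positivity, ?_⟩
    rw [div_mul_eq_mul_div, div_le_iff₀ (by positivity)]
    nlinarith
  have htS1 : t * ∑ k, |η k| ≤ m k₀ / 2 := htS.trans (min_le_left _ _)
  have htS2 : t * ∑ k, |η k| < θ := by
    have := htS.trans (min_le_right _ _)
    linarith
  have hηle : ∀ k, |η k| ≤ ∑ k, |η k| := fun k =>
    Finset.single_le_sum (f := fun i => |η i|) (fun i _ => abs_nonneg (η i)) (Finset.mem_univ k)
  obtain ⟨m', hm'sub⟩ : ∃ m' : Fin (n + 1) → ℝ, ∀ k, m' k - m k = t * η k :=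
    ⟨fun k => m k + t * η k, fun k => by ring⟩
  have hm'close : ∀ k, |m' k - m k| ≤ m k / 2 := by
    intro k
    rw [hm'sub, abs_mul, abs_of_pos ht]
    have h1 := hk₀ k (Finset.mem_univ k)
    have h2 : t * |η k| ≤ t * ∑ k, |η k| := mul_le_mul_of_nonneg_left (hηle k) ht.le
    linarith
  have hm'pos : ∀ k, 0 < m' k := by
    intro k
    have h1 := (abs_le.1 (hm'close k)).1
    have h2 := hm k
    linarith
  have hm'sum : ∑ k, m' k = 1 := by
    have e : ∑ k, m' k = ∑ k, m k + t * ∑ k, η k := by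
      rw [Finset.mul_sum, ← Finset.sum_add_distrib]
      apply Finset.sum_congr rfl; intro k _
      have := hm'sub k
      linarith
    rw [e, hηsum, hmsum]; ring
  have hexm : ∀ s, Function.Injective (seg y y' s) →
      ∃ φ : Fin (n + 1) → ℝ, ∀ k, cmass K (seg y y' s) φ k = m k :=
    fun s hs => hex n (seg y y' s) hs m hm hmsum
  have hext : ∀ s, Function.Injective (seg y y' s) →
      ∃ φ : Fin (n + 1) → ℝ, ∀ k, cmass K (seg y y' s) φ k = m' k :=
    fun s hs => hex n (seg y y' s) hs m' hm'pos hm'sum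
  choose! wm hwm using hexm
  choose! wt hwt using hext
  have hup := path_bound hF C₀ hcen y y' hy hy' m m' hm hm'close wm wt hwm hwt
  have hlo := second_diff_lower hF y y' hy hy' ψ m m' hmeq wm wt hwm hwt
  have hi1 : Function.Injective (seg y y' 1) := by rw [seg_one]; exact hy'
  have hwt1 := hwt 1 hi1
  rw [seg_one] at hwt1
  have hclose : ∑ k, |cmass K y' (wt 1) k - cmass K y' ψ' k| < θ := by
    have e : ∑ k, |cmass K y' (wt 1) k - cmass K y' ψ' k| = t * ∑ k, |η k| := by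
      rw [Finset.mul_sum]; apply Finset.sum_congr rfl; intro k _
      rw [hwt1 k, hmm k, hm'sub k, abs_mul, abs_of_pos ht]
    rw [e]; exact htS2
  obtain ⟨c', hc'⟩ := hθc (wt 1) hclose
  have hlow : V - δ * ∑ k, |η k| ≤ ∑ k, η k * (wt 1 k - ψ k) := by
    have e : ∑ k, η k * (wt 1 k - ψ k)
        = ∑ k, η k * (wt 1 k - ψ' k - c') + ∑ k, η k * (ψ' k - ψ k - c)
          + (c' + c) * ∑ k, η k := by
      rw [Finset.mul_sum, ← Finset.sum_add_distrib, ← Finset.sum_add_distrib]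
      apply Finset.sum_congr rfl; intro k _; ring
    rw [e, hηV, hηsum]
    have h1 : -(δ * ∑ k, |η k|) ≤ ∑ k, η k * (wt 1 k - ψ' k - c') := by
      rw [Finset.mul_sum, ← Finset.sum_neg_distrib]
      apply Finset.sum_le_sum; intro k _
      have h2 := (hc' k).le
      have h3 : |η k * (wt 1 k - ψ' k - c')| ≤ δ * |η k| := by
        rw [abs_mul, mul_comm]
        exact mul_le_mul_of_nonneg_right h2 (abs_nonneg _)
      have := (abs_le.1 h3).1
      linarith
    linarith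
  have e1 : ∑ k, (m' k - m k) * (wt 1 k - ψ k) = t * ∑ k, η k * (wt 1 k - ψ k) := by
    rw [Finset.mul_sum]; apply Finset.sum_congr rfl; intro k _; rw [hm'sub k]; ring
  have e2 : ∑ k, (m' k - m k) ^ 2 / m k = t ^ 2 * V := by
    rw [← hηm, Finset.mul_sum]; apply Finset.sum_congr rfl; intro k _
    rw [hm'sub k]; ring
  have e3 : Real.sqrt (C₀ * (t ^ 2 * V)) = t * Real.sqrt (C₀ * V) := by
    have : C₀ * (t ^ 2 * V) = t ^ 2 * (C₀ * V) := by ring
    rw [this, Real.sqrt_mul (sq_nonneg t), Real.sqrt_sq ht.le]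
  rw [e2, e3] at hup
  rw [e1] at hlo
  have hfin : t * (V - δ * ∑ k, |η k|)
      ≤ t * (Real.sqrt (C₀ * V) * Real.sqrt (∑ k, m k * ‖y' k - y k‖ ^ 2)) := by
    have h1 := mul_le_mul_of_nonneg_left hlow ht.le
    linarith
  have := le_of_mul_le_mul_left hfin ht
  linarith


/-- The weights of a power diagram with fixed cell masses are Lipschitz in the sites, with the
constant of the centroid inequality (given the three facts about power diagrams). -/
theorem lip_of_facts {K : Set (E d)} (hF : Facts K) (C₀ : ℝ) (hC₀ : 0 ≤ C₀)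
    (hcen : ∀ (n : ℕ) (y : Fin (n + 1) → E d) (ψ ψ' : Fin (n + 1) → ℝ),
      Function.Injective y → (∀ k, 0 < cmass K y ψ k) →
      (∀ k, |cmass K y ψ' k - cmass K y ψ k| ≤ cmass K y ψ k / 2) →
      ∑ k, ‖cmom K y ψ' k - cmom K y ψ k‖ ^ 2 / cmass K y ψ k
        ≤ C₀ * ∑ k, (cmass K y ψ' k - cmass K y ψ k) ^ 2 / cmass K y ψ k)
    (hex : ∀ (n : ℕ) (y : Fin (n + 1) → E d), Function.Injective y →
      ∀ m : Fin (n + 1) → ℝ, (∀ k, 0 < m k) → ∑ k, m k = 1 →
        ∃ ψ : Fin (n + 1) → ℝ, ∀ k, cmass K y ψ k = m k)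
    (hcont : ∀ (n : ℕ) (y : Fin (n + 1) → E d), Function.Injective y →
      ∀ ψ : Fin (n + 1) → ℝ, (∀ k, 0 < cmass K y ψ k) → ∀ δ : ℝ, 0 < δ →
        ∃ θ : ℝ, 0 < θ ∧ ∀ ψ' : Fin (n + 1) → ℝ,
          ∑ k, |cmass K y ψ' k - cmass K y ψ k| < θ → ∃ c : ℝ, ∀ k, |ψ' k - ψ k - c| < δ)
    (n : ℕ) (y y' : Fin (n + 1) → E d) (ψ ψ' : Fin (n + 1) → ℝ)
    (hy : Function.Injective y) (hy' : Function.Injective y') (hm : ∀ k, 0 < cmass K y ψ k)
    (hmm : ∀ k, cmass K y' ψ' k = cmass K y ψ k) :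
    ∃ c : ℝ, ∑ k, cmass K y ψ k * (ψ' k - ψ k - c) ^ 2
        ≤ C₀ * ∑ k, cmass K y ψ k * ‖y' k - y k‖ ^ 2 := by
  have hmsum : ∑ k, cmass K y ψ k = 1 := hF.sum_mass n y ψ hy
  refine ⟨∑ k, cmass K y ψ k * (ψ' k - ψ k), ?_⟩
  generalize hcdef : ∑ k, cmass K y ψ k * (ψ' k - ψ k) = c
  generalize hVdef : ∑ k, cmass K y ψ k * (ψ' k - ψ k - c) ^ 2 = V
  generalize hWdef : ∑ k, cmass K y ψ k * ‖y' k - y k‖ ^ 2 = W
  have hV0 : 0 ≤ V := by
    rw [← hVdef]; exact Finset.sum_nonneg fun k _ => mul_nonneg (hm k).le (sq_nonneg _)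
  have hW0 : 0 ≤ W := by
    rw [← hWdef]; exact Finset.sum_nonneg fun k _ => mul_nonneg (hm k).le (sq_nonneg _)
  have hηsum : ∑ k, cmass K y ψ k * (ψ' k - ψ k - c) = 0 := by
    have e : ∑ k, cmass K y ψ k * (ψ' k - ψ k - c)
        = ∑ k, cmass K y ψ k * (ψ' k - ψ k) - (∑ k, cmass K y ψ k) * c := by
      rw [Finset.sum_mul, ← Finset.sum_sub_distrib]
      apply Finset.sum_congr rfl; intro k _; ring
    rw [e, hcdef, hmsum]; ring
  have hηV : ∑ k, cmass K y ψ k * (ψ' k - ψ k - c) * (ψ' k - ψ k - c) = V := by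
    rw [← hVdef]; apply Finset.sum_congr rfl; intro k _; ring
  have hηm : ∑ k, (cmass K y ψ k * (ψ' k - ψ k - c)) ^ 2 / cmass K y ψ k = V := by
    rw [← hVdef]; apply Finset.sum_congr rfl; intro k _
    have := (hm k).ne'
    field_simp
  have key : ∀ δ : ℝ, 0 < δ → V ≤ Real.sqrt (C₀ * V) * Real.sqrt W
      + δ * ∑ k, |cmass K y ψ k * (ψ' k - ψ k - c)| := by
    intro δ hδ
    have := key_ineq hF C₀ hcen hex hcont y y' ψ ψ' hy hy' (fun k => cmass K y ψ k)
      (fun _ => rfl) hm hmm (fun k => cmass K y ψ k * (ψ' k - ψ k - c)) hηsum c V hηV hηm δ hδ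
    rw [hWdef] at this
    exact this
  generalize (∑ k, |cmass K y ψ k * (ψ' k - ψ k - c)|) = S at key
  have hS : ∀ δ : ℝ, 0 < δ → V ≤ Real.sqrt (C₀ * V) * Real.sqrt W + δ * |S| := by
    intro δ hδ
    have h1 := key δ hδ
    have h2 : δ * S ≤ δ * |S| := mul_le_mul_of_nonneg_left (le_abs_self S) hδ.le
    linarith
  have h2 : V ≤ Real.sqrt (C₀ * V) * Real.sqrt W := by
    apply le_of_forall_pos_le_add
    intro ε hε
    have h3 := hS (ε / (|S| + 1)) (by positivity)
    have h4 : ε / (|S| + 1) * |S| ≤ ε := by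
      rw [div_mul_eq_mul_div, div_le_iff₀ (by positivity)]
      nlinarith [abs_nonneg S]
    linarith
  by_cases hVz : V = 0
  · rw [hVz]; positivity
  · have hVpos : 0 < V := lt_of_le_of_ne hV0 (Ne.symm hVz)
    have h4 : Real.sqrt (C₀ * V) * Real.sqrt W = Real.sqrt (C₀ * V * W) :=
      (Real.sqrt_mul (by positivity) W).symm
    rw [h4] at h2
    have h5 : V ^ 2 ≤ (Real.sqrt (C₀ * V * W)) ^ 2 := pow_le_pow_left₀ hV0 h2 2
    rw [Real.sq_sqrt (by positivity)] at h5
    have h6 : V * V ≤ V * (C₀ * W) := by nlinarith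
    exact le_of_mul_le_mul_left h6 hVpos

end Vale.Agent.Lib.P074.Lip
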