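import Vale.Agent.Lib.P074.Third.Basic
import Vale.Agent.Lib.P074.helper82.LipCore

/-!
# P074: the weights of a power diagram are Lipschitz in the sites

`lip_of_pieces`: the centroid inequality, existence of power diagrams with prescribed masses and
continuity of the weights in the masses imply `LipStatement` (with the constant of the centroid
inequality).
-/

namespace Vale.Agent.Lib.P074.Lip

open MeasureTheory

variable {d : ℕ}

lemma integrable_unif_of_continuous {K : Set (E d)} (hK : IsCompact K)
    (hint : (interior K).Nonempty) {F : Type*} [NormedAddCommGroup F] [NormedSpace ℝ F]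
    {f : E d → F} (hf : Continuous f) : Integrable f (unif K) := by
  unfold unif
  have h1 : Integrable f (volume.restrict K) := hf.continuousOn.integrableOn_compact hK
  exact h1.smul_measure (ENNReal.inv_ne_top.2 (volume_pos_of_interior hint).ne')

lemma continuous_ppot {n : ℕ} (y : Fin (n + 1) → E d) (ψ : Fin (n + 1) → ℝ) :
    Continuous (ppot y ψ) := by
  have hR : ∀ k, ‖y k‖ ≤ ∑ j, ‖y j‖ := fun k =>
    Finset.single_le_sum (f := fun j => ‖y j‖) (fun j _ => norm_nonneg (y j)) (Finset.mem_univ k)
  exact lipschitz_continuous (ppot_lipschitz hR ψ)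

lemma integrable_ppot {K : Set (E d)} (hK : IsCompact K) (hint : (interior K).Nonempty) {n : ℕ}
    (y : Fin (n + 1) → E d) (ψ : Fin (n + 1) → ℝ) : Integrable (ppot y ψ) (unif K) :=
  integrable_unif_of_continuous hK hint (continuous_ppot y ψ)

lemma inner_cmom {K : Set (E d)} (hK : IsCompact K) (hint : (interior K).Nonempty) {n : ℕ}
    (y : Fin (n + 1) → E d) (ψ : Fin (n + 1) → ℝ) (k : Fin (n + 1)) (v : E d) :
    inner ℝ (cmom K y ψ k) v = ∫ x in pcell K y ψ k, inner ℝ x v ∂(unif K) := by
  unfold cmom
  have hi : Integrable (fun x : E d => x) ((unif K).restrict (pcell K y ψ k)) :=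
    (integrable_unif_of_continuous hK hint continuous_id).integrableOn
  rw [real_inner_comm, ← integral_inner hi v]
  congr 1
  funext x
  rw [real_inner_comm]

lemma facts {K : Set (E d)} (hK : IsCompact K) (hint : (interior K).Nonempty) : Facts K := by
  haveI := unif_isProbabilityMeasure hK hint
  refine ⟨fun n y ψ hy => sum_cmass hK hint hy ψ, ?_, ?_⟩
  · intro n y ψ hy
    have hpp : Integrable (ppot y ψ) (unif K) := integrable_ppot hK hint y ψ
    rw [integral_eq_sum_pcell hK hy ψ (ppot y ψ) hpp, ← Finset.sum_add_distrib]
    apply Finset.sum_congr rfl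
    intro k _
    rw [inner_cmom hK hint, ← setIntegral_const_pcell hK hint y ψ k (ψ k),
      ← integral_add hpp.integrableOn (integrable_const _)]
    apply setIntegral_congr_fun (measurableSet_pcell hK.isClosed y ψ k)
    intro x hx
    simp only
    rw [ppot_eq_of_mem hx]
    ring
  · intro n y y' ψ ψ' hy'
    have hpp : Integrable (ppot y ψ) (unif K) := integrable_ppot hK hint y ψ
    rw [integral_eq_sum_pcell hK hy' ψ' (ppot y ψ) hpp, ← Finset.sum_add_distrib]
    apply Finset.sum_le_sum
    intro k _
    rw [inner_cmom hK hint, ← setIntegral_const_pcell hK hint y' ψ' k (ψ k),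
      ← integral_add hpp.integrableOn (integrable_const _)]
    have hi : Integrable (fun x : E d => inner ℝ x (y k)) (unif K) :=
      integrable_unif_of_continuous hK hint (by fun_prop)
    apply setIntegral_mono_on hi.integrableOn (hpp.integrableOn.add (integrable_const _))
      (measurableSet_pcell hK.isClosed y' ψ' k)
    intro x _
    have := ppot_ge y ψ x k
    simp only [Pi.add_apply]
    linarith

end Vale.Agent.Lib.P074.Lip

namespace Vale.Agent.Lib.P074

/-- The weights of a power diagram with fixed cell masses are Lipschitz in the sites: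
mixed second difference of the semi-discrete transport value, subdivision of the segment of
sites, and a Minty-type limit. -/
theorem lip_of_pieces (d : ℕ) (hc : CentroidStatement d) (hex : ExStatement d)
    (hcont : ContStatement d) : LipStatement d := by
  intro K hK hconv hint
  obtain ⟨C₀, hC₀, hcen⟩ := hc K hK hconv hint
  refine ⟨C₀, hC₀, ?_⟩
  intro n y y' ψ ψ' hy hy' hm hmm
  exact Lip.lip_of_facts (Lip.facts hK hint) C₀ hC₀ hcen
    (fun n y hy m hm hsum => hex K hK hconv hint n y hy m hm hsum)
    (fun n y hy ψ hψ δ hδ => hcont K hK hconv hint n y hy ψ hψ δ hδ)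
    n y y' ψ ψ' hy hy' hm hmm

end Vale.Agent.Lib.P074
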